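import Crest.Agent.X212.Dec47.Main
import Crest.Agent.X212.Sw.Unf
import Crest.Agent.X212.Rad94.Sup
import Crest.Agent.X212.Cyc79.Qa
import Crest.Agent.X212.Cyc79.Qb
import Crest.Agent.X212.Cyc79.Qc
import Crest.Agent.X212.St29.EcA
import Crest.Agent.X212.St29.EcB
import Crest.Agent.X212.St29.EcC
import Crest.Agent.X212.Can17.Can
import Crest.Agent.X212.Pen22.Nv
import Crest.Agent.X212.Pen22.NvM
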