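import Crest.Agent.X212.Pen22.Cl
import Mathlib
import Crest.Agent.X212.Geo28.Top

-- ▼ part X212/Pen22/Bd
section

/-!
# Row 212, layer GEO (helper22): the data of a pentagon from classes and forms on the pieces; the two spheres
-/

set_option autoImplicit false
set_option linter.unusedSectionVars false

open Set Filter Topology Function Module
open scoped ContDiff Manifold
open Crest.Agent.R208 Crest.Agent.R208.F
open Crest.Agent.X212.Dr59 (Cs Cl Ex HZ Bd Lat Mp ip pm psh)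
open Crest.Agent.X212.Rfl19 Crest.Agent.X212.Nvg56 Crest.Agent.X212.Mv17

noncomputable section

namespace Crest.Agent.X212.Pen22

open Bor5.T Geo28 Real

/-- the forms of a composition -/
def glu {a c : Option O3} {B : O3} {T₁ : Pm a (some B) none} {T₂ : Pm (some B) c none} {T : Pm a c none}
    (g : Cm T₁ T₂ T) (η₁ : T₁.L → FO T₁) (η₂ : T₂.L → FO T₂) (d : T.L) : FO T :=
  pL g (η₁ (rl g.toGl3 d)) + pR g (η₂ (rr g.toGl3 d))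

theorem glu_fm {a c : Option O3} {B : O3} {T₁ : Pm a (some B) none} {T₂ : Pm (some B) c none} {T : Pm a c none}
    (g : Cm T₁ T₂ T) (η₁ : T₁.L → FO T₁) (η₂ : T₂.L → FO T₂) (d d₁ d₂) (h₁ : g.Rl d d₁) (h₂ : g.Rr d d₂) :
    g.Fm (glu g η₁ η₂ d).1 (η₁ d₁).1 (η₂ d₂).1 := rl_eq _ h₁ ▸ rr_eq _ h₂ ▸ fm_LR g _ _

section cp

variable {a b : Option O3} {A : O3} {L : Pm a b (some A)} {Q : Pm (some A) none none} {T : Pm a b none}
  (g : Cp3 L Q T)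

/-- forms on the piece with three ends -/
def pC : FO L →ₗ[ℝ] CF T.X where
  toFun y := ⟨psh g.l y.1, (cs_l g.toGl3 (fo_3 y)).mono (subset_univ _)⟩
  map_add' _ _ := Subtype.ext (psh_add _)
  map_smul' _ _ := Subtype.ext (psh_smul _ _)

theorem pC_fm (y : FO L) : g.Fm (pC g y).1 y.1 0 := by
  have := fm g.toGl3 (fo_3 y) Cs.zero
  rwa [psh_zero, add_zero] at this

theorem B_CC (y z : FO L) : B T.X (pC g y) (pC g z) = B L.X (cf y) (cf z) := ip_ll g.toGl3 (fo_3 z)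

theorem nb_of {a c : Option O3} {B : O3} {T₁ : Pm a (some B) none} {T₂ : Pm (some B) c none} {T : Pm a c none}
    (g : Cm T₁ T₂ T) (h : T.nb = 0) : T₁.nb = 0 ∧ T₂.nb = 0 := Nat.add_eq_zero_iff.1 (g.nb.symm.trans h)

end cp

variable {G : CG} {a : Option Q3} {B C : Q3} (Z : PG0 G a B C)

theorem nb1 : Z.X1.nb = 0 := (nb_of Z.gB Z.gN.nT).1

theorem nb2 : Z.X2.nb = 0 := (nb_of Z.g12 (nb_of Z.gC Z.gN.nT).1).2

theorem nb3 : Z.X3.nb = 0 := (nb_of Z.gC Z.gN.nT).2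

/-- alive classes -/
def Al (k : Z.X.L) : Prop := G.N.ki.Cl (rr Z.gN.toGl3 k) G.c0

theorem al_iff {k : Z.X.L} : (∃ x, Z.gN.Rr k x ∧ G.N.ki.Cl x G.c0) ↔ Al Z k :=
  ⟨fun ⟨_, h, e⟩ => (congrArg (G.N.ki.Cl · G.c0) (rr_eq _ h)).mpr e, fun h => ⟨_, rr_spec _ k, h⟩⟩

theorem al_L {k : Z.X.L} : Z.L.k3.Cl (rl Z.gN.toGl3 k) G.c0 ↔ Al Z k := cl_lr _ (rl_spec _ k) (rr_spec _ k)

theorem rl_ρ (s : Bool) (k : Z.X.L) : rl Z.gN.toGl3 ((Z.ρ s).r k) = rl Z.gN.toGl3 k := rl_eq _ (ρ_L Z s (rl_spec _ k))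

theorem rr_ρ (s : Bool) (k : Z.X.L) : rr Z.gN.toGl3 ((Z.ρ s).r k) = (G.ρ s).r (rr Z.gN.toGl3 k) :=
  rr_eq _ (ρ_N Z s (rr_spec _ k))

theorem al_ρ (s : Bool) {k : Z.X.L} : Al Z ((Z.ρ s).r k) ↔ Al Z k :=
  (al_L Z).symm.trans ((congrArg (Z.L.k3.Cl · G.c0) (rl_ρ Z s k)).to_iff.trans (al_L Z))

/-- classes and forms on the pieces -/
structure Dt where
  I1 : Set Z.X1.L
  I2 : Set Z.X2.L
  I3 : Set Z.X3.L
  M : Set Z.X.L
  IL : Set Z.L.L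
  IN : Set G.N.L
  fL : IL.Finite
  r12 : ∀ j, rl Z.g12.toGl3 j ∈ I1 → rr Z.g12.toGl3 j ∈ I2 →
    rl Z.g12.toGl3 (Z.ρ12.r j) ∈ I1 ∧ rr Z.g12.toGl3 (Z.ρ12.r j) ∈ I2
  r23 : ∀ j, rl Z.g23.toGl3 j ∈ I2 → rr Z.g23.toGl3 j ∈ I3 →
    rl Z.g23.toGl3 (Z.ρ23.r j) ∈ I2 ∧ rr Z.g23.toGl3 (Z.ρ23.r j) ∈ I3
  mI : ∀ k ∈ M, r1 Z k ∈ I1 ∧ r2 Z k ∈ I2 ∧ r3 Z k ∈ I3
  clL : ∀ l ∈ IL, Z.L.k3.Cl l G.c0
  rN : ∀ s, ∀ x ∈ IN, (G.ρ s).r x ∈ IN
  rM : ∀ s, ∀ k ∈ M, (Z.ρ s).r k ∈ M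
  sat : ∀ k, Al Z k → (k ∈ M ↔ rl Z.gN.toGl3 k ∈ IL ∧ rr Z.gN.toGl3 k ∈ IN)
  η1 : Z.X1.L → FO Z.X1
  η2 : Z.X2.L → FO Z.X2
  η3 : Z.X3.L → FO Z.X3
  ηL : Z.L.L → FO Z.L
  fin : (range η1).Finite ∧ (range η2).Finite ∧ (range η3).Finite ∧ (range ηL).Finite
  al : a = none → ∀ k ∈ M, Al Z k
  p1 : a = none → ∀ d ∈ I1, Z.X1.X.Ps d (η1 d).1
  p12 : a = none → ∀ j, rl Z.g12.toGl3 j ∈ I1 → rr Z.g12.toGl3 j ∈ I2 →
    Z.X12.X.Seg j (glu Z.g12 η1 η2 j).1 (rfo Z.ρ12 (glu Z.g12 η1 η2 (Z.ρ12.r j))).1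
  p : a = none → ∀ s, ∀ k ∈ M, Z.X.X.Tri k (glu Z.gC (glu Z.g12 η1 η2) η3 k).1
    (rfo (Z.ρ s) (glu Z.gC (glu Z.g12 η1 η2) η3 ((Z.ρ s).r k))).1 (pC Z.gN (ηL (rl Z.gN.toGl3 k))).1
  pL : a = none → ∀ l ∈ IL, Z.L.X.Ps l (ηL l).1
  p0 : a = none → ∀ i, rl Z.g0.toGl3 i ∈ IL → Z.X0.X.Ps i (pC Z.g0 (ηL (rl Z.g0.toGl3 i))).1

variable {Z}

theorem fin_val {α β : Type} {p : β → Prop} {f : α → Subtype p} (h : (range f).Finite) :
    (range fun d => (f d).1).Finite := (h.image Subtype.val).subset (range_comp Subtype.val f).le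

/-- the pentagon -/
def Dt.pg (D : Dt Z) (H : Lvs) : PG G a B C where
  toPG0 := Z
  I1 := D.I1
  I2 := D.I2
  I3 := D.I3
  T d₁ d₂ d₃ := ∀ k, r1 Z k = d₁ → r2 Z k = d₂ → r3 Z k = d₃ → k ∈ D.M
  M := D.M
  IL := D.IL
  IN := D.IN
  fL := D.fL
  r12 j _ _ h₁ h₂ m₁ m₂ :=
    have := D.r12 j (rl_eq _ h₁ ▸ m₁) (rr_eq _ h₂ ▸ m₂)
    ⟨_, this.1, _, this.2, rl_spec _ _, rr_spec _ _⟩
  r23 j _ _ h₁ h₂ m₁ m₂ :=
    have := D.r23 j (rl_eq _ h₁ ▸ m₁) (rr_eq _ h₂ ▸ m₂)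
    ⟨_, this.1, _, this.2, rl_spec _ _, rr_spec _ _⟩
  t12 j d₁ d₂ d₁' d₂' d₃ h₁ h₂ h₃ h₄ t k e₁ e₂ e₃ := by
    subst e₁ e₂ e₃
    have e := ρ0_l Z (rl_spec _ k)
    rw [← clsStmt.mvu Z.g12.toGl3 _ _ _ _ h₃ h₄ (rl_spec _ _) (rr_spec _ _), Z.ρ12.rr] at e
    have r := r_C Z e h₁ h₂ (ρ0_r Z (rr_spec _ k))
    exact (Z.ρ false).rr k ▸ D.rM false _ (t _ r.1 r.2.1 r.2.2)
  t23 j d₁ d₂ d₃ d₂' d₃' h₁ h₂ h₃ h₄ t k e₁ e₂ e₃ := by
    subst e₁ e₂ e₃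
    have e := ρ1_r Z (rr_spec _ k)
    rw [← clsStmt.mvu Z.g23.toGl3 _ _ _ _ h₃ h₄ (r2_B Z (rr_spec _ _)) (r3_B Z (rr_spec _ _)), Z.ρ23.rr] at e
    have r := r_B Z e (ρ1_l Z (r1_B Z k)) h₁ h₂
    exact (Z.ρ true).rr k ▸ D.rM true _ (t _ r.1 r.2.1 r.2.2)
  hM k := ⟨fun m => ⟨_, _, (D.mI k m).1, _, (D.mI k m).2.1, _, (D.mI k m).2.2, rl_spec _ k, rr_spec _ k, rl_spec _ _,
      rr_spec _ _, fun _ e₁ e₂ e₃ => r_inj Z e₁ e₂ e₃ ▸ m⟩, fun ⟨_, _, _, _, _, _, _, h, h₃, h₁, h₂, t⟩ =>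
    have r := r_C Z h h₁ h₂ h₃
    t k r.1 r.2.1 r.2.2⟩
  rM := D.rM
  clL := D.clL
  rN := D.rN
  sat k _ _ h h' e := rl_eq _ h ▸ rr_eq _ h' ▸ D.sat k ((al_iff Z).1 ⟨_, h', e⟩)
  f1 := fin_of H _ (some B) _ _
  f2 := fin_of H (some B) (some C) _ _
  f3 := fin_of H (some C) _ _ _
  η1 d := (D.η1 d).1
  η2 d := (D.η2 d).1
  η3 d := (D.η3 d).1
  η12 j := (glu Z.g12 D.η1 D.η2 j).1
  η23 j := (glu Z.g23 D.η2 D.η3 j).1
  η k := (glu Z.gC (glu Z.g12 D.η1 D.η2) D.η3 k).1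
  ηL l := (D.ηL l).1
  ηN k := (pC Z.gN (D.ηL (rl Z.gN.toGl3 k))).1
  η0 i := (pC Z.g0 (D.ηL (rl Z.g0.toGl3 i))).1
  fo := ⟨fun d => (D.η1 d).2, fun d => (D.η2 d).2, fun d => (D.η3 d).2, fun d => (D.ηL d).2⟩
  fin := ⟨fin_val D.fin.1, fin_val D.fin.2.1, fin_val D.fin.2.2.1, fin_val D.fin.2.2.2⟩
  e12 := glu_fm _ _ _
  e23 := glu_fm _ _ _
  eC := glu_fm _ _ _
  eN _ _ h := rl_eq _ h ▸ pC_fm _ _
  e0 _ _ h := rl_eq _ h ▸ pC_fm _ _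
  al h k m _ e := rr_eq _ e ▸ D.al h k m
  p1 := D.p1
  p12 h j _ _ h₁ h₂ m₁ m₂ := D.p12 h j (rl_eq _ h₁ ▸ m₁) (rr_eq _ h₂ ▸ m₂)
  p := D.p
  pL := D.pL
  p0 h i _ m e := D.p0 h i (rl_eq _ e ▸ m)

/-! ### reflections of forms -/

theorem pm_fix {X X' : M4} (ψ : X'.Dif X') (f : PD X X') (h : ∀ p ∈ f.source, ψ.φ (f p) = f p) (e : X.Fm) :
    pm X'.I X'.I ψ.φ (psh f e) = psh f e :=
  eq_psh f (fun q hq => (pm_eqv (φ := ψ) f (φ₁ := .refl X) h (mapsTo_id _) _ hq).trans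
      ((congrFun (Dr59.pm_id _) q).trans (Dr59.pm_psh f hq e))) fun _ hx =>
    pm_off (indicator_of_notMem (fun k => hx (mem_of_eq_of_mem
      (ψ.φ.injective ((h _ (f.map_target k)).trans (f.right_inv k))).symm (f.map_source (f.map_target k)))) _)

theorem pm_psh_eqv {X X' : M4} (ψ : X'.Dif X') (f : PD X X') (ψ₁ : X.Dif X) (h : ∀ p ∈ f.source, ψ.φ (f p) = f (ψ₁.φ p))
    (m : MapsTo ψ₁.φ f.source f.source) (m' : MapsTo ψ₁.φ.symm f.source f.source) (e : X.Fm) :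
    pm X'.I X'.I ψ.φ (psh f e) = psh f (pm X.I X.I ψ₁.φ e) :=
  eq_psh f (fun _ hq => (pm_eqv (φ := ψ) f h m _ hq).trans (Dr59.pm_congr_right (Dr59.pm_psh f (m hq) e))) fun _ hx =>
    pm_off (indicator_of_notMem (fun k => hx (mem_of_eq_of_mem (ψ.φ.injective ((h _ (m' (f.map_target k))).trans
      ((congrArg f (ψ₁.φ.apply_symm_apply _)).trans (f.right_inv k)))).symm (f.map_source (m' (f.map_target k))))) _)

theorem psh_psh {X X' X'' : M4} (f : PD X X') (g : PD X' X'') (h : PD X X'') (s : h.source = f.source)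
    (m : MapsTo f f.source g.source) (e : ∀ p ∈ f.source, g (f p) = h p) (y : X.Fm) : psh g (psh f y) = psh h y :=
  eq_psh h (fun q hq => by
    have hq' := s ▸ hq
    rw [Dr59.pm_congr (g := g ∘ f) (eventually_of_mem (f.open_source.mem_nhds hq') fun p hp => (e p hp).symm) rfl,
      ← Dr59.pm_comp (md_pd g (m hq')) (md_pd f hq'), Dr59.pm_congr_right (Dr59.pm_psh g (m hq') _), Dr59.pm_psh f hq'])
    fun x hx => Dr59.psh_eq_zero g (S := f.target) (fun _ _ k => indicator_of_notMem k _) fun ⟨p, k, e'⟩ =>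
      hx (e' ▸ ((congrArg g (f.right_inv k)).symm.trans (e _ (f.map_target k))).symm ▸ h.map_source (s ▸ f.map_target k))

variable (Z)

theorem pL_pL (y : FO Z.X1) : pL Z.gC (pL Z.g12 y) = pL Z.gB y :=
  Subtype.ext (psh_psh _ _ _ (Z.gB.ls.trans Z.g12.ls.symm)
    (fun _ m => (mem_l Z.gC.toGl3).2 ((ko_l Z.g12 m).trans_lt four_pos)) Z.as1 _)

theorem rfo_L (y : FO Z.X12) : rfo (Z.ρ false) (pL Z.gC y) = pL Z.gC (rfo Z.ρ12 y) :=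
  Subtype.ext (pm_psh_eqv _ _ _ Z.mC.1 (rf_maps _ (core_o Z.gC.toGl3)) (rf_symm _ (core_o Z.gC.toGl3)) _)

theorem rfo_R (y : FO Z.X3) : rfo (Z.ρ false) (pR Z.gC y) = pR Z.gC y := Subtype.ext (pm_fix _ _ Z.mC.2 _)

theorem rfo_B (y : FO Z.X1) : rfo (Z.ρ true) (pL Z.gB y) = pL Z.gB y := Subtype.ext (pm_fix _ _ Z.mB.1 _)

theorem pl_C (s : Bool) (y : FO Z.L) : pl (Z.ρ s).toDif (pC Z.gN y) = pC Z.gN y :=
  Subtype.ext (pm_fix _ _ (Z.mN s).1 _)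

variable (H : CH G)

theorem cs_e (s : Bool) : Cs G.N.X.I 2 Z.gN.r.source (H.e s) := (H.zr s).mono (core_i Z.gN.toGl3)

/-- the duals of the spheres -/
def eX (s : Bool) : CF Z.X.X := ⟨H.E Z s, ((cs_e Z H s).psh _ subset_rfl).mono (subset_univ _)⟩

theorem B_e (y : CF Z.X.X) (s : Bool) :
    Pen22.B _ y (eX Z H s) = G.N.X.ip (pm G.N.X.I Z.X.X.I Z.gN.r y.1) (H.e s) :=
  ip_pd _ Z.gN.pr (cs_e Z H s) subset_rfl _

theorem B_ee (s t : Bool) : Pen22.B _ (eX Z H s) (eX Z H t) = if s = t then -1 else 1 :=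
  (B_e Z H _ t).trans (((cs_e Z H t).ip_congr fun _ h => Dr59.pm_psh _ h _).trans (H.ee s t))

theorem V_e (k : Z.X.L) (s : Bool) : V k (eX Z H s) = pv (rr Z.gN.toGl3 k) (H.e s) :=
  pv_psh _ Z.gN.pr (rr_spec _ k) (cs_e Z H s) subset_rfl

/-- **the reflection formula** -/
theorem B_ρ (s : Bool) (y z : CF Z.X.X) : Pen22.B _ z (pl (Z.ρ s).toDif y) =
    Pen22.B _ z y + 2 * Pen22.B _ y (eX Z H s) * Pen22.B _ z (eX Z H s) := by
  have c := core_i Z.gN.toGl3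
  have u : nU G = Z.gN.r.source := Z.gN.rs.symm
  have cl : ∀ y : CF Z.X.X, Cl G.N.X.I 2 Z.gN.r.source (pm G.N.X.I Z.X.X.I Z.gN.r y.1) := fun y =>
    y.2.cl.pm (mp_pd _)
  set y' := pm G.N.X.I Z.X.X.I Z.gN.r y.1
  have z0 : ∀ p ∉ G.N.Core, (pm G.N.X.I G.N.X.I (G.ρ s).φ y' - y') p = 0 := fun p hp => sub_eq_zero.2 (rf_off _ hp _)
  have w := Dr59.cs_indicator Z.gN.r.open_source (((cl y).pm (Mp.of_contMDiff (G.ρ s).φ.contMDiff (rf_maps _ c))).sub (cl y))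
    (cpt_core _) c fun p _ => z0 p
  rw [indicator_eq_self.2 fun p hp => c (by_contra fun k => hp (z0 p k))] at w
  have e : (pl (Z.ρ s).toDif y - y).1 = psh Z.gN.r (pm G.N.X.I G.N.X.I (G.ρ s).φ y' - y') :=
    eq_psh _ (fun q hq => (congrFun (Dr59.pm_sub _ _ _) q).trans
      (congrArg (· - y' q) (pm_eqv _ (Z.mN s).2 (rf_maps _ c) _ hq))) fun x hx => sub_eq_zero.2
      (Dr59.pm_of_eventually_id (eventually_of_mem (Z.gN.l.open_target.mem_nhds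
        (((cov Z.gN.toGl3).ge (mem_univ x)).resolve_right hx)) fun p hp =>
          (congrArg (Z.ρ s).φ (Z.gN.l.right_inv hp)).symm.trans
            (((Z.mN s).1 _ (Z.gN.l.map_target hp)).trans (Z.gN.l.right_inv hp))) _)
  rw [← sub_eq_iff_eq_add', ← map_sub, B_e, B_e, ← H.rf s _ _ (u ▸ cl y) (u ▸ cl z)]
  exact (congrArg (Z.X.X.ip z) e).trans (ip_pd _ Z.gN.pr w c _)

theorem B_fix {s : Bool} {y : CF Z.X.X} (h : pl (Z.ρ s).toDif y = y) : Pen22.B _ y (eX Z H s) = 0 := by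
  have := B_ρ Z H s y (eX Z H s)
  rw [h, B_ee, if_pos rfl] at this
  linarith

theorem V_cu (k : Z.X.L) (y : CF Z.X.X) : V k y = Pen22.B _ (cf (cu k)) y := (B_cur (cu_spec k) y).symm

theorem V_ρ (s : Bool) (k : Z.X.L) (y : CF Z.X.X) :
    V ((Z.ρ s).r k) y = V k y + 2 * Pen22.B _ y (eX Z H s) * V k (eX Z H s) := by
  rw [V_r, V_cu, V_cu, V_cu, B_ρ Z H]

theorem V_half (s : Bool) (k : Z.X.L) : (Z.ρ s).half k ↔ 0 < V k (eX Z H s) :=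
  (Z.hN s k _ (rr_spec _ k)).trans ((H.hf s _ _ (exists_cur _).choose_spec).trans (by rw [V_e]; rfl))

theorem V_int (s : Bool) (k : Z.X.L) : ∃ n : ℤ, V k (eX Z H s) = 2 * π * n :=
  (H.int s _ _ (exists_cur _).choose_spec).imp fun _ h => (V_e Z H k s).trans h

theorem V_ne (s : Bool) (k : Z.X.L) : V k (eX Z H s) ≠ 0 := fun h => by
  have := (Z.ρ s).hr k
  rw [V_half Z H, V_half Z H, V_ρ Z H, h] at this
  simp at this

variable {Z H} in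
theorem V_al (R : Rel G H) {k : Z.X.L} (h : Al Z k) : V k (eX Z H true) = -V k (eX Z H false) := by
  rw [V_e, V_e]
  exact eq_neg_of_add_eq_zero_right (R.al _ _ (exists_cur _).choose_spec h)

/-- the reflections on the classes of the plumbing -/
theorem pv_ρ (s : Bool) (x : G.N.L) (t : Bool) :
    pv x (H.e t) = pv ((G.ρ s).r x) (H.e t) + 2 * pv ((G.ρ s).r x) (H.e s) * if t = s then -1 else 1 := by
  obtain ⟨c, hc⟩ := exists_cur ((G.ρ s).r x)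
  have hc' := cur_dif ((G.ρ s).pb x) hc
  rw [← pv_eq hc' (H.zr t), ← pv_eq hc (H.zr t), ← pv_eq hc (H.zr s), ← H.ee, ← H.rf s _ _ ((cur_cl hc).mono (subset_univ _))
    ((H.zr t).on _), M4.ip, M4.ip, M4.ip, Dr59.ip_comm (H.zr t).cl.dg, ((H.zr t).mono (subset_univ _)).ip_sub G.N.X.ori
      (cur_cl hc').sm (cur_cl hc).sm, add_sub_cancel]

end Crest.Agent.X212.Pen22
end
end

-- ▼ part X212/Pen22/Ar
section

/-!
# Row 212, layer GEO (helper22): the number of wall crossings of a model pentagon is odd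
-/

set_option autoImplicit false

namespace Crest.Agent.X212.Pen22

theorem exists_jump (i j : ℤ) : ∃ W : Finset ℤ, (∀ n, n ∈ W ↔ ¬(i ≤ n ↔ j ≤ n)) ∧ (W.card : ℤ) = |i - j| := by
  refine ⟨Finset.Ico (min i j) (max i j), fun n => by rw [Finset.mem_Ico]; omega, ?_⟩
  rw [Int.card_Ico, Int.toNat_of_nonneg (by omega), max_sub_min_eq_abs']

theorem exists_thr {s : ℝ} (hs : s ≠ 0) (u : ℝ) : ∃ i : ℤ, ∀ n : ℤ, 0 ≤ u + n * s ↔ (i ≤ n ↔ 0 < s) := by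
  rcases hs.lt_or_gt with h | h
  · refine ⟨⌊u / -s⌋ + 1, fun n => ?_⟩
    rw [iff_false_intro h.not_gt, iff_false, not_le, Int.lt_add_one_iff, Int.le_floor, le_div_iff₀ (neg_pos.2 h)]
    constructor <;> intro <;> linarith
  · refine ⟨⌈-u / s⌉, fun n => ?_⟩
    rw [iff_true_intro h, iff_true, Int.ceil_le, div_le_iff₀ h]
    constructor <;> intro <;> linarith

/-- two telescoping sequences of signs -/
theorem odd_walls {s : ℝ} (hs : s ≠ 0) (u w : ℝ) : ∃ W₁ W₂ : Finset ℤ,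
    (∀ n : ℤ, n ∈ W₁ ↔ ¬(0 ≤ u + n * s ↔ 0 ≤ w + n * s)) ∧
    (∀ n : ℤ, n ∈ W₂ ↔ ¬(0 ≤ u + n * s ↔ 0 ≤ w - s + n * s)) ∧ Odd (W₁.card + W₂.card) := by
  obtain ⟨i, hi⟩ := exists_thr hs u
  obtain ⟨j, hj⟩ := exists_thr hs w
  obtain ⟨W₁, h1, c1⟩ := exists_jump i j
  obtain ⟨W₂, h2, c2⟩ := exists_jump i (j + 1)
  refine ⟨W₁, W₂, fun n => by rw [h1, hi, hj]; tauto, fun n => ?_, ?_⟩
  · rw [h2, hi, show w - s + n * s = w + (n - 1 : ℤ) * s by push_cast; ring, hj, le_sub_iff_add_le]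
    tauto
  · rw [← Int.odd_coe_nat, Nat.cast_add, c1, c2, Int.odd_add, odd_abs, even_abs, ← sub_sub, Int.even_sub_one,
      Int.not_even_iff_odd]

end Crest.Agent.X212.Pen22
end

-- ▼ part X212/Pen22/La
section

/-!
# Row 212, layer GEO (helper22): symmetric forms of rank three with two spheres
-/

set_option autoImplicit false

namespace Crest.Agent.X212.Pen22

open Real

variable {V : Type*} [AddCommGroup V] [Module ℝ V] {B : V →ₗ[ℝ] V →ₗ[ℝ] ℝ} (hB : ∀ y z, B y z = B z y)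

variable (B) in
/-- orthogonal triples span -/
def Rk3 : Prop := ∀ f₁ f₂ f₃, B f₁ f₂ = 0 → B f₁ f₃ = 0 → B f₂ f₃ = 0 → B f₁ f₁ ≠ 0 → B f₂ f₂ ≠ 0 → B f₃ f₃ ≠ 0 →
  ∀ y z, B y z = B y f₁ * B z f₁ / B f₁ f₁ + B y f₂ * B z f₂ / B f₂ f₂ + B y f₃ * B z f₃ / B f₃ f₃

theorem Rk3.pos (h : Rk3 B) {S y f₁ f₂ f₃ : V} (hS : B S S = 0) (hy : B y S ≠ 0) (h₁ : B f₁ f₂ = 0) (h₂ : B f₁ f₃ = 0)
    (h₃ : B f₂ f₃ = 0) (n₁ : B f₁ f₁ ≠ 0) (n₂ : B f₂ f₂ ≠ 0) (n₃ : B f₃ f₃ ≠ 0) :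
    0 < B f₁ f₁ ∨ 0 < B f₂ f₂ ∨ 0 < B f₃ f₃ := by
  by_contra! k
  have e := h _ _ _ h₁ h₂ h₃ n₁ n₂ n₃ S S
  have p := fun f (k : B f f ≤ 0) => div_nonpos_of_nonneg_of_nonpos (mul_self_nonneg (B S f)) k
  have z := fun f (n : B f f ≠ 0) (e : B S f * B S f / B f f = 0) =>
    mul_self_eq_zero.1 ((div_eq_zero_iff.1 e).resolve_right n)
  have := h _ _ _ h₁ h₂ h₃ n₁ n₂ n₃ y S
  rw [z _ n₁ (by linarith [p _ k.1, p _ k.2.1, p _ k.2.2]), z _ n₂ (by linarith [p _ k.1, p _ k.2.1, p _ k.2.2]),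
    z _ n₃ (by linarith [p _ k.1, p _ k.2.1, p _ k.2.2])] at this
  exact hy (by simpa using this)

include hB

theorem sq_pos {E A : V} (hE : B E E = -1) (hA : 0 < B A A) : 0 < B (A + B A E • E) (A + B A E • E) := by
  simp only [map_add, map_smul, LinearMap.add_apply, LinearMap.smul_apply, smul_eq_mul, hE, hB E A]
  nlinarith [mul_self_nonneg (B A E)]

theorem Rk3.ne (h : Rk3 B) {S E y A : V} (hS : B S S = 0) (hE : B E E = -1) (hSE : B E S = 0) (hy : B y S ≠ 0)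
    (hA : 0 < B A A) : B A S ≠ 0 := fun h0 => by
  obtain ⟨f, e1, e2, e3⟩ : ∃ f, B E f = 0 ∧ 0 < B f f ∧ B f S = 0 := 
    ⟨A + B A E • E, by simp [hE, hB E A], sq_pos hB hE hA, by simp [h0, hSE]⟩
  obtain ⟨x, k1, k2, k3⟩ : ∃ x, B E x = 0 ∧ B f x = 0 ∧ B x S = B y S := ⟨y + B y E • E - (B y f / B f f) • f,
    by simp [hE, e1, hB E y], by simp [hB f E, e1, hB f y, e2.ne'], by simp [hSE, e3]⟩
  have n : B (((1 - B x x) / (2 * B y S)) • S + x) (((1 - B x x) / (2 * B y S)) • S + x) = 1 := by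
    simp only [map_add, map_smul, LinearMap.add_apply, LinearMap.smul_apply, smul_eq_mul, hS, hB S x, k3]
    field_simp
    ring
  have := h E f (((1 - B x x) / (2 * B y S)) • S + x) e1 (by simp [hSE, k1]) (by simp [e3, k2]) (by simp [hE]) e2.ne'
    (n.trans_ne one_ne_zero) S S
  rw [n] at this
  simp [hS, hB S E, hSE, hB S f, e3, hB S x, k3, hy] at this

/-- a basis of signature `(-, +, -)` -/
theorem Rk3.bas (h : Rk3 B) {S E A : V} (hS : B S S = 0) (hE : B E E = -1) (hSE : B E S = 0) (hA : 0 < B A A)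
    (h0 : B A S ≠ 0) : ∃ f₂ f₃, B E f₂ = 0 ∧ B E f₃ = 0 ∧ B f₂ f₃ = 0 ∧ 0 < B f₂ f₂ ∧ B f₃ f₃ < 0 ∧
      ∀ c, B c S = 0 → B c c = -(B c E * B c E) := by
  obtain ⟨f, e1, e2, e3⟩ : ∃ f, B E f = 0 ∧ 0 < B f f ∧ B f S ≠ 0 := 
    ⟨A + B A E • E, by simp [hE, hB E A], sq_pos hB hE hA, by simpa [hSE]⟩
  have n : B (S - (B f S / B f f) • f) (S - (B f S / B f f) • f) = -(B f S * B f S / B f f) := by
    simp only [map_sub, map_smul, LinearMap.sub_apply, LinearMap.smul_apply, smul_eq_mul, hS, hB S f]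
    field_simp
    ring
  have l := neg_lt_zero.2 (div_pos (mul_self_pos.2 e3) e2)
  have a : B E (S - (B f S / B f f) • f) = 0 := by simp [hSE, e1]
  have b : B f (S - (B f S / B f f) • f) = 0 := by simp [e2.ne']
  refine ⟨f, _, e1, a, b, e2, n.trans_lt l, fun c hc => ?_⟩
  rw [h E f _ e1 a b (by simp [hE]) e2.ne' (n.trans_lt l).ne c c, n, hE]
  simp only [map_sub, map_smul, smul_eq_mul, hc]
  field_simp
  ring

/-- the sign of the perturbation -/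
noncomputable def ep (u : ℝ) : ℝ := if 0 ≤ u then -1 else 1

/-- a reflection path stays in a chamber or crosses one wall -/
theorem wall {A A' c : V} {a v : ℝ} (hA : 4 * π ^ 2 < B A A) (h' : B A' A' = B A A) (h1 : B A A' = B A A + 2 * a * a)
    (h2 : B c A' = B c A + 2 * a * v) (hv : v * v = 4 * π ^ 2) (hc : B c c = -(4 * π ^ 2)) :
    0 < B (ep (B c A) • A - c) (ep (B c A) • A - c) ∧ 0 < B (ep (B c A') • A' - c) (ep (B c A') • A' - c) ∧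
      ((0 ≤ B c A ↔ 0 ≤ B c A') → 0 < B (ep (B c A) • A - c) (ep (B c A') • A' - c)) ∧
      (¬(0 ≤ B c A ↔ 0 ≤ B c A') → B (ep (B c A) • A - c) (ep (B c A') • A' - c) < 0) := by
  simp only [map_sub, map_smul, LinearMap.sub_apply, LinearMap.smul_apply, smul_eq_mul, hB A c, hB A' c, h', h1, hc, ep]
  split_ifs with p q q
  · exact ⟨by linarith, by linarith, fun _ => by nlinarith [mul_self_nonneg a], fun k => (k (iff_of_true p q)).elim⟩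
  · exact ⟨by linarith, by linarith, fun k => (q (k.1 p)).elim, fun _ => by nlinarith [mul_self_nonneg (2 * a + v)]⟩
  · exact ⟨by linarith, by linarith, fun k => (p (k.2 q)).elim, fun _ => by nlinarith [mul_self_nonneg (2 * a - v)]⟩
  · exact ⟨by linarith, by linarith, fun _ => by nlinarith [mul_self_nonneg a], fun k => (k (iff_of_false p q)).elim⟩

theorem seg_pos {p q : V} (h : 0 < B p p) (h' : 0 < B q q) (k : 0 < B p q) {s : ℝ} (hs : s ∈ Set.Icc (0 : ℝ) 1) :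
    0 < B ((1 - s) • p + s • q) ((1 - s) • p + s • q) := by
  simp only [map_add, map_smul, LinearMap.add_apply, LinearMap.smul_apply, smul_eq_mul, hB q p]
  have a := mul_nonneg (mul_nonneg (sub_nonneg.2 hs.2) hs.1) k.le
  rcases hs.1.eq_or_lt with rfl | e
  · simpa using h
  · nlinarith [mul_nonneg (mul_self_nonneg (1 - s)) h.le, mul_pos (mul_pos e e) h']

omit hB in
theorem exists_mu {q : ℝ} (h : 0 < q) : ∃ μ : ℝ, 4 * π ^ 2 < μ * (μ * q) :=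
  ⟨√(4 * π ^ 2 / q + 1), by
    rw [← mul_assoc, mul_self_sqrt (by positivity), add_mul, div_mul_cancel₀ _ h.ne']; linarith⟩

end Crest.Agent.X212.Pen22
end

-- ▼ part X212/Pen22/Qh

/-!
# Row 212, layer GEO (helper22): pentagons at a rational homology sphere
-/

set_option autoImplicit false
set_option linter.unusedSectionVars false

open Set Filter Topology Function Module
open scoped ContDiff Manifold
open Crest.Agent.R208 Crest.Agent.R208.F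
open Crest.Agent.X212.Dr59 (Cs Cl Ex HZ Bd Lat Mp ip pm psh)
open Crest.Agent.X212.Orx52 (Pos pr oR)
open Crest.Agent.X212.Rfl19 Crest.Agent.X212.Nvg56 Crest.Agent.X212.Mv17

noncomputable section

universe u

namespace Crest.Agent.X212.Pen22

open Bor5.T Geo28 Real Flo2

section lat

variable {X : M4} (hb : Bd X.I 2 (univ : Set X.M) 3)
include hb

theorem lat3 {f₁ f₂ f₃ : CF X} (h₁ : B X f₁ f₂ = 0) (h₂ : B X f₁ f₃ = 0) (h₃ : B X f₂ f₃ = 0) (n₁ : B X f₁ f₁ ≠ 0)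
    (n₂ : B X f₂ f₂ ≠ 0) (n₃ : B X f₃ f₃ ≠ 0) : Lat X.I X.o univ univ (fun i => (![f₁, f₂, f₃] i).1)
      (Matrix.diagonal ![B X f₁ f₁, B X f₂ f₂, B X f₃ f₃]) where
  ori := X.ori
  op := isOpen_univ
  sub := subset_rfl
  bd := by simpa using hb
  cs i := (![f₁, f₂, f₃] i).2
  gram i j := by
    show B X (![f₁, f₂, f₃] i) (![f₁, f₂, f₃] j) = _
    fin_cases i <;> fin_cases j <;> simp [h₁, h₂, h₃, B_comm f₂ f₁, B_comm f₃ f₁, B_comm f₃ f₂]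
  det := by simp [Fin.prod_univ_three, n₁, n₂, n₃]

theorem rk3 : Rk3 (B X) := fun _ _ _ h₁ h₂ h₃ n₁ n₂ n₃ y z =>
  ((lat3 hb h₁ h₂ h₃ n₁ n₂ n₃).diag y.2.cl z.2).trans (by rw [Fin.sum_univ_three]; rfl)

theorem deg3 {f₁ f₂ f₃ : CF X} (h₁ : B X f₁ f₂ = 0) (h₂ : B X f₁ f₃ = 0) (h₃ : B X f₂ f₃ = 0) (n₁ : B X f₁ f₁ < 0)
    (n₂ : 0 < B X f₂ f₂) (n₃ : B X f₃ f₃ < 0) : X.Bp 1 ∧ ∀ (d : X.L) (c : CF X) (x : ℚ), Cur d c.1 →
      4 * (x : ℝ) = B X c c / (4 * π ^ 2) - 3 → X.Deg d x := by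
  have l := lat3 hb h₁ h₂ h₃ n₁.ne n₂.ne' n₃.ne
  refine ⟨⟨_, _, _, _, l, Nat.card_eq_one_iff_exists.2 ⟨⟨1, n₂⟩, fun ⟨a, ha⟩ => Subtype.ext ?_⟩⟩,
    fun d c x hc e => ⟨_, _, _, _, c.1, l, c.2, hc, e.trans ?_⟩⟩
  · fin_cases a
    exacts [(n₁.not_gt ha).elim, rfl, (n₃.not_gt ha).elim]
  · rw [Fin.sum_univ_three]
    simp only [Matrix.cons_val_zero, Matrix.cons_val_one, Matrix.cons_val, sign_neg n₁, sign_pos n₂, sign_neg n₃]
    show _ = B X c c / (4 * π ^ 2) - _ - _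
    norm_num
    ring

end lat

theorem null_ps {X : M4} {d : X.L} {η η' : CF X} (e : ∀ y, B X y η' = B X y η) (h : X.Ps d η) : X.Ps d η' :=
  let ⟨c, h1, h2⟩ := of_ps h
  ps_of c η' h1 (by
    simp only [map_sub, LinearMap.sub_apply] at h2 ⊢
    linarith [e η', e c, B_comm η' η, e η, B_comm η' c, B_comm η c])

theorem pin_fo (Lv : Lvs) {a b x : Option O3} (T : Pm a b x) (e : CF T.X) :
    ∃ y : FO T, Ex T.X.I univ (y.1 - e.1) ∧ ∀ z, B _ z (cf y) = B _ z e :=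
  let ⟨y, h1, h2, h3⟩ := Lv.pin _ _ _ T e.1 e.2
  ⟨⟨y, h1⟩, h2, fun z => h3 z.1 z.2.cl⟩

/-- the classes of diffeomorphic manifolds -/
def difE {X X' : M4} (φ : X.Dif X') : X.L ≃ X'.L where
  toFun d := (φ.exists_pb d).choose
  invFun d := (φ.symm.exists_pb d).choose
  left_inv d := pb_unique (pb_symm (φ.symm.exists_pb _).choose_spec) (φ.exists_pb d).choose_spec
  right_inv d := pb_unique (pb_symm (φ.exists_pb _).choose_spec) (φ.symm.exists_pb d).choose_spec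

theorem difE_pb {X X' : M4} (φ : X.Dif X') (d : X.L) : Pb φ.φ univ (difE φ d) d := (φ.exists_pb d).choose_spec

theorem cl3 {a b : Option O3} {A : O3} {L : Pm a b (some A)} {Q : Pm (some A) none none} {T : Pm a b none}
    (g : Cp3 L Q T) {d l} (h : g.Rl d l) : (∀ s, L.ki.Cl l s ↔ T.ki.Cl d s) ∧ ∀ s, L.ko.Cl l s ↔ T.ko.Cl d s :=
  ⟨fun s => clsStmt.agi a _ _ g.l _ _ _ s g.l.open_source
    ⟨0, fun p k => (mem_l g.toGl3).2 ((L.i3 p k).trans_lt four_pos)⟩ (by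
      rcases a with _ | a
      exacts [trivial, ag_of_eq ((eventually_lt_atBot 0).mono fun t ht y => g.ki y t ht (abs_pos.2 ht.ne))]) h,
  fun s => clsStmt.ago b _ _ g.l _ _ _ s g.l.open_source
    ⟨0, fun p k => (mem_l g.toGl3).2 ((L.o3 p k).trans_lt four_pos)⟩ (by
      rcases b with _ | b
      exacts [trivial, ag_of_eq ((eventually_gt_atTop 0).mono fun t ht y => g.ko y t ht (abs_pos.2 ht.ne'))]) h⟩

theorem cl_0 {G : CG} {a B C} (Z : PG0 G a B C) (i : Z.X0.L) : Z.L.k3.Cl (rl Z.g0.toGl3 i) G.c0 :=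
  (cl_lr _ (rl_spec _ i) (G.uB _ ▸ rr_spec _ i)).2 G.clB

variable {G : CG} {A B C : Q3} {Z : PG0 G (some A) B C} {H : CH G} (Lv : Lvs) (ph : PH H Z)
include Lv ph

theorem cyl0 : Z.X0.WCyl ∧ (∀ s, ∃! i, Z.X0.ki.Cl i s) ∧ ∀ i s, Z.X0.ki.Cl i s ↔ Z.X0.ko.Cl i s := by
  obtain ⟨T, hT, ⟨φ⟩⟩ := ph.cyl
  obtain ⟨ψ, h1, h2, h3⟩ := hT.w
  have a := fun i s => clsStmt.agi _ _ _ φ.φ _ i _ s isOpen_univ ⟨0, fun _ _ => trivial⟩ φ.ki (difE_pb φ.toDif i)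
  have b := fun i s => clsStmt.ago _ _ _ φ.φ _ i _ s isOpen_univ ⟨0, fun _ _ => trivial⟩ φ.ko (difE_pb φ.toDif i)
  refine ⟨⟨ψ.trans φ.φ.symm, φ.toDif.symm.pos.comp h1 (fun y _ => φ.φ.symm.isLocalDiffeomorph y)
    (fun y _ => ψ.isLocalDiffeomorph y) (mapsTo_univ _ _), ag_trans nd_bot (ag_comp h2 _) (φ.ki.symm nd_bot φ.toDif),
    ag_trans nd_top (ag_comp h3 _) (φ.ko.symm nd_top φ.toDif)⟩, fun s => ?_,
    fun i s => (a i s).trans (((Lv.cyl.cl _ T hT).2 _ _).trans (b i s).symm)⟩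
  simp only [a]
  exact ((difE φ.toDif).existsUnique_congr fun _ => Iff.rfl).2 ((Lv.cyl.cl _ T hT).1 s)

theorem top0 : HZ Z.X0.X.I 1 (univ : Set Z.X0.M) ∧ Z.X0.X.Bp 0 ∧ ∀ i, Z.X0.X.Deg i 0 := by
  obtain ⟨ψ, -⟩ := (cyl0 Lv ph).1
  have z : ∀ n, HZ A.Y.I n (univ : Set A.Y.M) → HZ Z.X0.X.I n (univ : Set Z.X0.M) := fun n h => by
    have := (Dr59.hz_pd ψ.toPartialDiffeomorph isOpen_univ (subset_univ _)).2
      (univ_prod_univ ▸ h.prod_convex isOpen_univ isOpen_univ convex_univ)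
    rwa [show ψ.toPartialDiffeomorph '' univ = univ from image_univ_of_surjective ψ.surjective] at this
  have l : Lat Z.X0.X.I Z.X0.X.o univ univ (Fin.elim0 : Fin 0 → _) (Matrix.diagonal Fin.elim0) :=
    .empty Z.X0.X.ori isOpen_univ subset_rfl (z 2 A.h2)
  refine ⟨z 1 A.h1, ⟨0, _, _, _, l, Nat.card_of_isEmpty⟩, fun i => ⟨0, _, _, _, _, l, (cf (cu i)).2, cu_spec i, ?_⟩⟩
  rw [show Z.X0.X.ip _ _ = 0 from (cf (cu i)).2.ip_ex Z.X0.X.ori (z 2 A.h2 _ (cf (cu i)).2.cl)]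
  simp

theorem il_eq {l l' : Z.L.L} (h : Z.L.k3.Cl l G.c0) (h' : Z.L.k3.Cl l' G.c0) {s} (e : Z.L.ki.Cl l s)
    (e' : Z.L.ki.Cl l' s) : l = l' := by
  obtain ⟨i, k, -⟩ := g3_mv Z.g0.toGl3 h G.clB
  obtain ⟨i', k', -⟩ := g3_mv Z.g0.toGl3 h' G.clB
  cases ((cyl0 Lv ph).2.1 s).unique (((cl3 Z.g0 k).1 s).1 e) (((cl3 Z.g0 k').1 s).1 e')
  exact (g3_l _ i).unique k k'

theorem il_io {l : Z.L.L} (h : Z.L.k3.Cl l G.c0) {s} (e : Z.L.ki.Cl l s) : Z.L.ko.Cl l s :=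
  let ⟨i, k, _⟩ := g3_mv Z.g0.toGl3 h G.clB
  ((cl3 Z.g0 k).2 s).2 (((cyl0 Lv ph).2.2 i s).1 (((cl3 Z.g0 k).1 s).1 e))

theorem il_fin : {l | Z.L.k3.Cl l G.c0}.Finite :=
  have := A.fin
  Finite.of_injective (fun l : {l | Z.L.k3.Cl l G.c0} => (show A.L from (clsStmt.ki Z.L l.1).exists.choose))
    fun l l' e => Subtype.ext (il_eq Lv ph l.2 l'.2 (clsStmt.ki Z.L l.1).exists.choose_spec
      ((congrArg (Z.L.ki.Cl l'.1) e).mpr (clsStmt.ki Z.L l'.1).exists.choose_spec))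

variable (Z H) in
/-- the sum of the spheres -/
abbrev sX : CF Z.X.X := eX Z H false + eX Z H true

omit Lv ph in
theorem B_es (s : Bool) : Pen22.B _ (eX Z H s) (sX Z H) = 0 := by cases s <;> simp [B_ee]

omit Lv ph in
theorem B_ss : Pen22.B _ (sX Z H) (sX Z H) = 0 := by
  rw [map_add, B_comm, B_es, B_comm, B_es, add_zero]

omit Lv in
theorem ex_ns : ∃ y, Pen22.B _ y (sX Z H) ≠ 0 :=
  let ⟨y, h1, h2⟩ := ph.ns
  ⟨⟨y, h1⟩, (map_add (Pen22.B _ ⟨y, h1⟩) _ _).trans_ne h2⟩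

/-- the forms: the class of the positive handle, with the sign of the class -/
theorem ex_fm : ∃ (b₁ : FO Z.X1) (b₂ : FO Z.X2) (b₃ : FO Z.X3) (a : CF Z.X.X), 4 * π ^ 2 < Pen22.B _ a a ∧ ∀ k,
    cf (glu Z.gC (glu Z.g12 (fun d => ep (V d (cf b₁)) • b₁) fun d => ep (V d (cf b₂)) • b₂)
      (fun d => ep (V d (cf b₃)) • b₃) k) = ep (V k a) • a := by
  have p := fun {a b} (T : Pm a b none) (h : ∃ y, Cs T.X.I 2 univ y ∧ T.X.ip y y ≠ 0) =>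
    show ∃ y : FO T, Pen22.B _ (cf y) (cf y) ≠ 0 from
    let ⟨y, h1, h2⟩ := h
    let ⟨z, _, k⟩ := pin_fo Lv T ⟨y, h1⟩
    ⟨z, by rwa [k, B_comm, k]⟩
  obtain ⟨a₁, n₁⟩ := p _ ph.q1
  obtain ⟨a₂, n₂⟩ := p _ ph.q2
  obtain ⟨a₃, n₃⟩ := p _ ph.q3
  obtain ⟨y, hy⟩ := ex_ns ph
  have g : ∀ (b₁ : FO Z.X1) (b₂ : FO Z.X2) (b₃ : FO Z.X3) k,
      cf (glu Z.gC (glu Z.g12 (fun d => ep (V d (cf b₁)) • b₁) fun d => ep (V d (cf b₂)) • b₂)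
        (fun d => ep (V d (cf b₃)) • b₃) k) = ep (V k (cf (pL Z.gC (pL Z.g12 b₁)))) • cf (pL Z.gC (pL Z.g12 b₁)) +
        ep (V k (cf (pL Z.gC (pR Z.g12 b₂)))) • cf (pL Z.gC (pR Z.g12 b₂)) + ep (V k (cf (pR Z.gC b₃))) • cf (pR Z.gC b₃) :=
    fun b₁ b₂ b₃ k => by
      rw [V_L _ (rl_spec _ k), V_L _ (rl_spec _ k), V_R _ (rr_spec _ k), V_L _ (rl_spec _ _), V_R _ (rr_spec _ _)]
      simp only [glu, map_add, map_smul]
  rcases (rk3 ph.bd).pos B_ss hy (f₁ := cf (pL Z.gC (pL Z.g12 a₁))) (f₂ := cf (pL Z.gC (pR Z.g12 a₂)))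
    (f₃ := cf (pR Z.gC a₃)) (by rw [B_LL, B_LR]) (B_LR _ _ _) (B_LR _ _ _) (by rwa [B_LL, B_LL]) (by rwa [B_LL, B_RR])
    (by rwa [B_RR]) with h | h | h <;> obtain ⟨μ, hμ⟩ := exists_mu h
  · exact ⟨μ • a₁, 0, 0, cf (pL Z.gC (pL Z.g12 (μ • a₁))), by simpa using hμ, fun k => by rw [g]; simp⟩
  · exact ⟨0, μ • a₂, 0, cf (pL Z.gC (pR Z.g12 (μ • a₂))), by simpa using hμ, fun k => by rw [g]; simp⟩
  · exact ⟨0, 0, μ • a₃, cf (pR Z.gC (μ • a₃)), by simpa using hμ, fun k => by rw [g]; simp⟩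

omit Lv ph in
theorem fin_ep {α β : Type} [AddCommGroup β] [Module ℝ β] (f : α → ℝ) (b : β) : (range fun d => ep (f d) • b).Finite :=
  (toFinite {(-1 : ℝ) • b, (1 : ℝ) • b}).subset (range_subset_iff.2 fun d => by unfold ep; split_ifs <;> simp)

/-- the data of a model pentagon -/
theorem ex_dt (M : Set Z.X.L) (IN : Set G.N.L) (rN : ∀ s, ∀ x ∈ IN, (G.ρ s).r x ∈ IN)
    (rM : ∀ s, ∀ k ∈ M, (Z.ρ s).r k ∈ M) (sat : ∀ k, Al Z k → (k ∈ M ↔ rr Z.gN.toGl3 k ∈ IN)) :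
    ∃ (D : Dt Z) (a : CF Z.X.X), D.I1 = univ ∧ D.I2 = univ ∧ D.I3 = univ ∧ D.M = M ∧ D.IN = IN ∧
      D.IL = {l | Z.L.k3.Cl l G.c0} ∧ 4 * π ^ 2 < Pen22.B _ a a ∧
      ∀ k, cf (glu Z.gC (glu Z.g12 D.η1 D.η2) D.η3 k) = ep (V k a) • a :=
  let ⟨_, _, _, a, h1, h2⟩ := ex_fm Lv ph
  ⟨⟨univ, univ, univ, M, _, IN, il_fin Lv ph, fun _ _ _ => ⟨trivial, trivial⟩, fun _ _ _ => ⟨trivial, trivial⟩,
    fun _ _ => ⟨trivial, trivial, trivial⟩, fun _ h => h, rN, rM,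
    fun k h => (sat k h).trans (and_iff_right ((al_L Z).2 h)).symm, _, _, _, 0,
    ⟨fin_ep _ _, fin_ep _ _, fin_ep _ _, finite_range_const⟩, nofun, nofun, nofun, nofun, nofun, nofun⟩,
    a, rfl, rfl, rfl, rfl, rfl, rfl, h1, h2⟩

end Crest.Agent.X212.Pen22
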